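import Mathlib

set_option linter.all false

open Polynomial

namespace Vale.Agent.P022.H945

variable {E : Type*} [NormedField E] [IsUltrametricDist E]

lemma ums {a b : E} {r : ℝ} (ha : ‖a‖ ≤ r) (hb : ‖b‖ ≤ r) : ‖a - b‖ ≤ r := by
  have h := IsUltrametricDist.norm_add_le_max a (-b)
  rw [norm_neg, ← sub_eq_add_neg] at h
  exact h.trans (max_le ha hb)

lemma uma {a b : E} {r : ℝ} (ha : ‖a‖ ≤ r) (hb : ‖b‖ ≤ r) : ‖a + b‖ ≤ r := by
  have h := IsUltrametricDist.norm_add_le_max a b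
  exact h.trans (max_le ha hb)

/-- squaring improves the congruence to `1` by the factor `‖2‖`. -/
lemma pow_two_pow_sub_one {u : E} (h2 : ‖(2 : E)‖ ≤ 1) (hu : ‖u - 1‖ ≤ ‖(2 : E)‖) :
    ∀ k : ℕ, ‖u ^ 2 ^ k - 1‖ ≤ ‖(2 : E)‖ ^ (k + 1) := by
  intro k
  induction k with
  | zero => simpa using hu
  | succ k ih =>
    have e : u ^ 2 ^ (k + 1) - 1 = 2 * (u ^ 2 ^ k - 1) + (u ^ 2 ^ k - 1) * (u ^ 2 ^ k - 1) := by
      rw [pow_succ 2 k, pow_mul]; ring
    rw [e]
    refine uma ?_ ?_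
    · rw [norm_mul, pow_succ' _ (k + 1)]
      exact mul_le_mul_of_nonneg_left ih (norm_nonneg _)
    · rw [norm_mul, pow_succ' _ (k + 1)]
      have h0 : ‖u ^ 2 ^ k - 1‖ ≤ ‖(2 : E)‖ := by
        refine ih.trans ?_
        calc ‖(2 : E)‖ ^ (k + 1) ≤ ‖(2 : E)‖ ^ 1 :=
              pow_le_pow_of_le_one (norm_nonneg _) h2 (by omega)
          _ = _ := pow_one _
      exact mul_le_mul h0 ih (norm_nonneg _) (norm_nonneg _)

/-- The set `S` has residue field of `4` elements with uniformizer `2`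
(differences are `2 ^ j` times a unit whose cube is `1` modulo `2`). -/
def Unr (S : Set E) : Prop :=
  ∀ x ∈ S, ∀ y ∈ S, x = y ∨ ∃ (j : ℕ) (u : E), x - y = 2 ^ j * u ∧ ‖u ^ 3 - 1‖ ≤ ‖(2 : E)‖

lemma norm_one_of_cube {u : E} (h2 : ‖(2 : E)‖ < 1) (hu : ‖u ^ 3 - 1‖ ≤ ‖(2 : E)‖) : ‖u‖ = 1 := by
  have h1 : ‖u ^ 3‖ = 1 := by
    by_contra hne
    have hn : ‖u ^ 3‖ ≠ ‖(-1 : E)‖ := by rw [norm_neg, norm_one]; exact hne
    have := IsUltrametricDist.norm_add_eq_max_of_norm_ne_norm hn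
    rw [norm_neg, norm_one, ← sub_eq_add_neg] at this
    have h3 := le_max_right ‖u ^ 3‖ 1
    linarith
  rw [norm_pow] at h1
  exact (pow_eq_one_iff_of_nonneg (norm_nonneg _) (by norm_num)).1 h1

/-- indicator functions of balls are uniform limits of polynomials. -/
lemma ind {S : Set E} (h2 : ‖(2 : E)‖ < 1) (h20 : (2 : E) ≠ 0) (hS : Unr S) {c : E} (hc : c ∈ S) :
    ∀ (M : ℕ) (ε : ℝ), 0 < ε → ε ≤ 1 → ∃ p : E[X], ∀ x ∈ S,
      (‖x - c‖ ≤ ‖(2 : E)‖ ^ M → ‖p.eval x - 1‖ ≤ ε) ∧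
      (‖(2 : E)‖ ^ M < ‖x - c‖ → ‖p.eval x‖ ≤ ε) := by
  have hp2 : 0 < ‖(2 : E)‖ := norm_pos_iff.2 h20
  -- the norm of a difference is a power of `‖2‖`
  have key : ∀ x ∈ S, x ≠ c → ∃ (j : ℕ) (u : E), x - c = 2 ^ j * u ∧ ‖u ^ 3 - 1‖ ≤ ‖(2 : E)‖ ∧
      ‖u‖ = 1 ∧ ‖x - c‖ = ‖(2 : E)‖ ^ j := by
    intro x hx hne
    rcases hS x hx c hc with h | ⟨j, u, hju, hu⟩
    · exact absurd h hne
    · have h1 := norm_one_of_cube h2 hu
      refine ⟨j, u, hju, hu, h1, ?_⟩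
      rw [hju, norm_mul, norm_pow, h1, mul_one]
  intro M
  induction M with
  | zero =>
    intro ε hε _
    refine ⟨1, fun x hx => ⟨fun _ => by simpa using hε.le, fun h => ?_⟩⟩
    exfalso
    rw [pow_zero] at h
    by_cases hxc : x = c
    · rw [hxc, sub_self, norm_zero] at h; linarith
    · obtain ⟨j, u, _, _, _, hn⟩ := key x hx hxc
      rw [hn] at h
      have := pow_le_one₀ (n := j) (norm_nonneg (2 : E)) h2.le
      linarith
  | succ M ih =>
    intro ε hε hε1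
    obtain ⟨k, hk⟩ : ∃ k : ℕ, ‖(2 : E)‖ ^ k < ε := exists_pow_lt_of_lt_one hε h2
    set e : ℕ := 3 * 2 ^ k with he
    set A : ℝ := (‖(2 : E)‖ ^ M)⁻¹ ^ e with hA
    have hM1 : ‖(2 : E)‖ ^ M ≤ 1 := pow_le_one₀ (norm_nonneg _) h2.le
    have hMp : 0 < ‖(2 : E)‖ ^ M := pow_pos hp2 _
    have hA1 : 1 ≤ A := one_le_pow₀ ((one_le_inv₀ hMp).2 hM1)
    have hAp : 0 < A := lt_of_lt_of_le one_pos hA1
    obtain ⟨p, hp⟩ := ih (ε / A) (div_pos hε hAp) ((div_le_one hAp).2 (hε1.trans hA1))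
    have hεA : ε / A ≤ ε := div_le_self hε.le hA1
    refine ⟨p * (1 - C ((2 : E) ^ M)⁻¹ ^ e * (X - C c) ^ e), fun x hx => ?_⟩
    have hev : (p * (1 - C ((2 : E) ^ M)⁻¹ ^ e * (X - C c) ^ e)).eval x
        = p.eval x * (1 - (((2 : E) ^ M)⁻¹ * (x - c)) ^ e) := by
      simp [mul_pow]
    rw [hev]
    obtain ⟨hp1, hp0⟩ := hp x hx
    set z : E := ((2 : E) ^ M)⁻¹ * (x - c) with hz
    have hzn : ‖z‖ = (‖(2 : E)‖ ^ M)⁻¹ * ‖x - c‖ := by
      rw [hz, norm_mul, norm_inv, norm_pow]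
    have hke : ‖(2 : E)‖ ^ e ≤ ε := by
      refine le_trans ?_ hk.le
      refine pow_le_pow_of_le_one (norm_nonneg _) h2.le ?_
      have : k < 2 ^ k := Nat.lt_two_pow_self
      omega
    constructor
    · intro h
      have hle : ‖x - c‖ ≤ ‖(2 : E)‖ ^ M :=
        h.trans (pow_le_pow_of_le_one (norm_nonneg _) h2.le (by omega))
      have h1 := hp1 hle
      have hz2 : ‖z‖ ≤ ‖(2 : E)‖ := by
        rw [hzn, inv_mul_le_iff₀ hMp, ← pow_succ]
        exact h
      have hze : ‖z ^ e‖ ≤ ε := by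
        rw [norm_pow]
        exact (pow_le_pow_left₀ (norm_nonneg _) hz2 e).trans hke
      have hpe : ‖p.eval x‖ ≤ 1 := by
        have : p.eval x = (p.eval x - 1) + 1 := by ring
        rw [this]
        exact uma (h1.trans (hεA.trans hε1)) (by rw [norm_one])
      have e1 : p.eval x * (1 - z ^ e) - 1 = (p.eval x - 1) - p.eval x * z ^ e := by ring
      rw [e1]
      refine ums (h1.trans hεA) ?_
      rw [norm_mul]
      calc ‖p.eval x‖ * ‖z ^ e‖ ≤ 1 * ε := mul_le_mul hpe hze (norm_nonneg _) zero_le_one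
        _ = ε := one_mul _
    · intro h
      by_cases hxc : x = c
      · rw [hxc, sub_self, norm_zero] at h
        exact absurd h (not_lt.2 (pow_nonneg (norm_nonneg _) _))
      obtain ⟨j, u, hju, hu, hu1, hn⟩ := key x hx hxc
      rw [hn] at h
      have hj : j < M + 1 := by
        by_contra hcon
        rw [not_lt] at hcon
        exact absurd h (not_lt.2 (pow_le_pow_of_le_one (norm_nonneg _) h2.le hcon))
      rcases Nat.lt_or_ge j M with hjM | hjM
      · have hgt : ‖(2 : E)‖ ^ M < ‖x - c‖ := by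
          rw [hn]
          exact pow_lt_pow_right_of_lt_one₀ hp2 h2 hjM
        have h0 := hp0 hgt
        have hzA : ‖z ^ e‖ ≤ A := by
          rw [norm_pow, hA]
          refine pow_le_pow_left₀ (norm_nonneg _) ?_ e
          rw [hzn]
          have : ‖x - c‖ ≤ 1 := by rw [hn]; exact pow_le_one₀ (norm_nonneg _) h2.le
          calc (‖(2 : E)‖ ^ M)⁻¹ * ‖x - c‖ ≤ (‖(2 : E)‖ ^ M)⁻¹ * 1 :=
                mul_le_mul_of_nonneg_left this (inv_nonneg.2 hMp.le)
            _ = _ := mul_one _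
        have h1z : ‖1 - z ^ e‖ ≤ A := ums (by rw [norm_one]; exact hA1) hzA
        rw [norm_mul]
        calc ‖p.eval x‖ * ‖1 - z ^ e‖ ≤ (ε / A) * A :=
              mul_le_mul h0 h1z (norm_nonneg _) (div_pos hε hAp).le
          _ = ε := div_mul_cancel₀ _ hAp.ne'
      · have hjM' : j = M := by omega
        subst hjM'
        have hzu : z = u := by
          rw [hz, hju, ← mul_assoc, inv_mul_cancel₀ (pow_ne_zero _ h20), one_mul]
        have hle : ‖x - c‖ ≤ ‖(2 : E)‖ ^ j := hn.le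
        have h1 := hp1 hle
        have hpe : ‖p.eval x‖ ≤ 1 := by
          have : p.eval x = (p.eval x - 1) + 1 := by ring
          rw [this]
          exact uma (h1.trans (hεA.trans hε1)) (by rw [norm_one])
        have h3 := pow_two_pow_sub_one h2.le hu k
        have h4 : ‖1 - z ^ e‖ ≤ ε := by
          rw [norm_sub_rev, hzu, he, pow_mul]
          refine h3.trans (le_trans ?_ hk.le)
          exact pow_le_pow_of_le_one (norm_nonneg _) h2.le (by omega)
        rw [norm_mul]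
        calc ‖p.eval x‖ * ‖1 - z ^ e‖ ≤ 1 * ε :=
              mul_le_mul hpe h4 (norm_nonneg _) zero_le_one
          _ = ε := one_mul _

/-- **2-adic Weierstrass**: `X` any type, `ι : X → E` with image an unramified set, `r` the reduction
modulo `2 ^ M` (finitely many classes); a bounded function which is constant up to `ε` on the
classes is uniformly within `ε` of a polynomial in `ι`. -/
theorem sw {X Q : Type*} [Finite Q] (h2 : ‖(2 : E)‖ < 1) (h20 : (2 : E) ≠ 0) (ι : X → E)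
    (hS : Unr (Set.range ι)) (M : ℕ) (r : X → Q)
    (hr : ∀ x y, r x = r y ↔ ‖ι x - ι y‖ ≤ ‖(2 : E)‖ ^ M)
    (F : X → E) (B : ℝ) (hB : ∀ x, ‖F x‖ ≤ B) (ε : ℝ) (hε : 0 < ε)
    (hF : ∀ x y, r x = r y → ‖F x - F y‖ ≤ ε) :
    ∃ p : E[X], ∀ x, ‖F x - p.eval (ι x)‖ ≤ ε := by
  classical
  haveI := Fintype.ofFinite Q
  rcases isEmpty_or_nonempty X with hX | hX
  · exact ⟨0, fun x => (hX.false x).elim⟩
  obtain ⟨x₀⟩ := hX
  have hB0 : 0 ≤ B := (norm_nonneg _).trans (hB x₀)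
  set δ : ℝ := min 1 (ε / (B + 1)) with hδ
  have hδ0 : 0 < δ := lt_min one_pos (div_pos hε (by linarith))
  have hδ1 : δ ≤ 1 := min_le_left _ _
  have hδB : B * δ ≤ ε := by
    have h1 : δ ≤ ε / (B + 1) := min_le_right _ _
    calc B * δ ≤ (B + 1) * (ε / (B + 1)) :=
          mul_le_mul (by linarith) h1 hδ0.le (by linarith)
      _ = ε := by field_simp
  -- representatives
  let s : Q → X := fun a => if h : ∃ x, r x = a then h.choose else x₀
  have hs : ∀ x, r (s (r x)) = r x := by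
    intro x
    have h : ∃ y, r y = r x := ⟨x, rfl⟩
    simp only [s, dif_pos h]
    exact h.choose_spec
  have hex : ∀ a : Q, ∃ p : E[X], ∀ x : X,
      (‖ι x - ι (s a)‖ ≤ ‖(2 : E)‖ ^ M → ‖p.eval (ι x) - 1‖ ≤ δ) ∧
      (‖(2 : E)‖ ^ M < ‖ι x - ι (s a)‖ → ‖p.eval (ι x)‖ ≤ δ) := by
    intro a
    obtain ⟨p, hp⟩ := ind h2 h20 hS (Set.mem_range_self (s a)) M δ hδ0 hδ1
    exact ⟨p, fun x => hp (ι x) (Set.mem_range_self x)⟩
  choose p hp using hex
  -- only the classes which are attained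
  let T : Finset Q := Finset.univ.filter fun a => r (s a) = a
  refine ⟨∑ a ∈ T, C (F (s a)) * p a, fun x => ?_⟩
  have hxT : r x ∈ T := by simp [T, hs x]
  have hev : (∑ a ∈ T, C (F (s a)) * p a).eval (ι x) = ∑ a ∈ T, F (s a) * (p a).eval (ι x) := by
    rw [eval_finset_sum]
    simp
  rw [hev, ← Finset.add_sum_erase T _ hxT]
  have e1 : F x - (F (s (r x)) * (p (r x)).eval (ι x)
        + ∑ a ∈ T.erase (r x), F (s a) * (p a).eval (ι x))
      = ((F x - F (s (r x))) - F (s (r x)) * ((p (r x)).eval (ι x) - 1))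
        - ∑ a ∈ T.erase (r x), F (s a) * (p a).eval (ι x) := by ring
  rw [e1]
  refine ums (ums (hF _ _ (hs x).symm) ?_) ?_
  · rw [norm_mul]
    have h1 := (hp (r x) x).1 ((hr _ _).1 (hs x).symm)
    calc ‖F (s (r x))‖ * ‖(p (r x)).eval (ι x) - 1‖ ≤ B * δ :=
          mul_le_mul (hB _) h1 (norm_nonneg _) hB0
      _ ≤ ε := hδB
  · refine IsUltrametricDist.norm_sum_le_of_forall_le_of_nonneg hε.le ?_
    intro a ha
    rw [Finset.mem_erase] at ha
    have haT : r (s a) = a := by simpa [T] using ha.2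
    have hne : ¬ ‖ι x - ι (s a)‖ ≤ ‖(2 : E)‖ ^ M := by
      rw [← hr, haT]
      exact fun h => ha.1 h.symm
    have h1 := (hp a x).2 (not_le.1 hne)
    rw [norm_mul]
    calc ‖F (s a)‖ * ‖(p a).eval (ι x)‖ ≤ B * δ :=
          mul_le_mul (hB _) h1 (norm_nonneg _) hB0
      _ ≤ ε := hδB

end Vale.Agent.P022.H945
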