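import Vale.Agent.P022.H945.SW
import Vale.Agent.P022.H472.Lit

set_option linter.all false

open scoped NumberField
open NumberField

namespace Vale.Agent.P022.H945

section arith

variable {K : Type} [Field K] [NumberField K] [Algebra.IsQuadraticExtension ℚ K]

noncomputable def bas (K : Type) [Field K] [NumberField K] [Algebra.IsQuadraticExtension ℚ K] :
    Module.Basis (Fin 2) ℤ (𝓞 K) :=
  (Module.finBasis ℤ (𝓞 K)).reindex (finCongr (by
    rw [RingOfIntegers.rank, Algebra.IsQuadraticExtension.finrank_eq_two]))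

/-- the quadratic equation -/
theorem quad (z : 𝓞 K) :
    z * z = (Algebra.trace ℤ (𝓞 K) z : 𝓞 K) * z - (Algebra.norm ℤ z : 𝓞 K) := by
  have h := Matrix.aeval_self_charpoly (Algebra.leftMulMatrix (bas K) z)
  rw [Matrix.charpoly_fin_two] at h
  have h1 : Algebra.leftMulMatrix (bas K)
      (z * z - (Algebra.trace ℤ (𝓞 K) z : 𝓞 K) * z + (Algebra.norm ℤ z : 𝓞 K)) = 0 := by
    rw [← h, Algebra.trace_eq_matrix_trace (bas K), Algebra.norm_eq_matrix_det (bas K)]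
    simp only [map_add, map_sub, map_mul, map_intCast, map_pow, Polynomial.aeval_X,
      Polynomial.aeval_C, eq_intCast]
    rw [pow_two]
  have h2 := (Algebra.leftMulMatrix_injective (bas K)) (h1.trans (map_zero _).symm)
  linear_combination h2

theorem disc_odd (D : ℕ) (hd : NumberField.discr K = -(D : ℤ)) (hD : Odd D) :
    Odd (Algebra.traceMatrix ℤ (bas K)).det := by
  have h : Algebra.discr ℤ (bas K) = NumberField.discr K := by
    rw [NumberField.discr]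
    have := NumberField.discr_eq_discr K (bas K)
    rw [this, NumberField.discr]
  rw [← Algebra.discr_def, h, hd]
  exact Odd.neg (by exact_mod_cast hD)

/-- nondegeneracy of the trace form modulo `2` -/
theorem nondeg (D : ℕ) (hd : NumberField.discr K = -(D : ℤ)) (hD : Odd D) (a : 𝓞 K)
    (h : ∀ y : 𝓞 K, (2 : ℤ) ∣ Algebra.trace ℤ (𝓞 K) (y * a)) : (2 : 𝓞 K) ∣ a := by
  classical
  set T := Algebra.traceMatrix ℤ (bas K) with hT
  set x : Fin 2 → ℤ := fun i => (bas K).repr a i with hx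
  have ha : a = ∑ i, x i • bas K i := ((bas K).sum_repr a).symm
  have h1 : ∀ i, (T.mulVec x) i = Algebra.trace ℤ (𝓞 K) (bas K i * a) := by
    intro i
    rw [ha, Finset.mul_sum, map_sum]
    simp only [Matrix.mulVec, dotProduct, hT, Algebra.traceMatrix_apply, Algebra.traceForm_apply,
      mul_smul_comm, map_zsmul, smul_eq_mul]
    exact Finset.sum_congr rfl fun j _ => mul_comm _ _
  let φ : ℤ →+* ZMod 2 := Int.castRingHom (ZMod 2)
  have h2 : (T.map φ).mulVec (φ ∘ x) = 0 := by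
    funext i
    have : (T.map φ).mulVec (φ ∘ x) i = φ ((T.mulVec x) i) := by
      simp [Matrix.mulVec, dotProduct, Matrix.map_apply]
    rw [this, h1, Pi.zero_apply]
    exact (ZMod.intCast_zmod_eq_zero_iff_dvd _ 2).2 (by exact_mod_cast h _)
  have hdet : (T.map φ).det ≠ 0 := by
    have : (T.map φ).det = φ T.det := by
      rw [← RingHom.mapMatrix_apply, ← RingHom.map_det]
    rw [this]
    intro h0
    have h3 : (2 : ℤ) ∣ T.det := by
      exact_mod_cast (ZMod.intCast_zmod_eq_zero_iff_dvd _ 2).1 h0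
    have h4 := disc_odd D hd hD
    rw [← hT] at h4
    exact (Int.not_even_iff_odd.2 h4) (even_iff_two_dvd.2 h3)
  have h5 := Matrix.eq_zero_of_mulVec_eq_zero hdet h2
  have h6 : ∀ i, (2 : ℤ) ∣ x i := by
    intro i
    have := congrFun h5 i
    exact_mod_cast (ZMod.intCast_zmod_eq_zero_iff_dvd (x i) 2).1 this
  rw [ha]
  refine Finset.dvd_sum fun i _ => ?_
  obtain ⟨c, hc⟩ := h6 i
  refine ⟨c • bas K i, ?_⟩
  rw [hc, mul_smul]
  simp [zsmul_eq_mul]

theorem dvd_int {n : ℤ} (h : (2 : 𝓞 K) ∣ (n : 𝓞 K)) : (2 : ℤ) ∣ n := by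
  obtain ⟨w, hw⟩ := h
  have h1 : Algebra.norm ℤ (n : 𝓞 K) = Algebra.norm ℤ (((2 : ℤ) : 𝓞 K) * w) := by
    rw [hw]; norm_num
  rw [map_mul] at h1
  have h2 : ∀ m : ℤ, Algebra.norm ℤ (m : 𝓞 K) = m ^ 2 := by
    intro m
    have := Algebra.norm_algebraMap_of_basis (bas K) m
    simpa using this
  rw [h2, h2] at h1
  have h3 : (2 : ℤ) ∣ n ^ 2 := ⟨2 * Algebra.norm ℤ w, by rw [h1]; ring⟩
  exact Int.prime_two.dvd_of_dvd_pow h3

theorem two_dvd_of_odd_mul {n : ℤ} (hn : Odd n) {z : 𝓞 K} (h : (2 : 𝓞 K) ∣ (n : 𝓞 K) * z) :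
    (2 : 𝓞 K) ∣ z := by
  obtain ⟨k, hk⟩ := hn
  have : z = (n : 𝓞 K) * z - 2 * (k * z) := by rw [hk]; push_cast; ring
  rw [this]
  exact dvd_sub h (dvd_mul_right _ _)

/-- an element whose square is divisible by `2` has even trace -/
theorem trace_even {z : 𝓞 K} (h : (2 : 𝓞 K) ∣ z * z) : (2 : ℤ) ∣ Algebra.trace ℤ (𝓞 K) z := by
  -- the norm is even
  have hN : (2 : ℤ) ∣ Algebra.norm ℤ z := by
    obtain ⟨w, hw⟩ := h
    have h1 : Algebra.norm ℤ z * Algebra.norm ℤ z = 4 * Algebra.norm ℤ w := by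
      rw [← map_mul, hw, map_mul]
      have : Algebra.norm ℤ (2 : 𝓞 K) = 4 := by
        have := Algebra.norm_algebraMap_of_basis (bas K) (2 : ℤ)
        simpa using this
      rw [this]
    have h2 : (2 : ℤ) ∣ Algebra.norm ℤ z * Algebra.norm ℤ z := ⟨2 * Algebra.norm ℤ w, by rw [h1]; ring⟩
    rcases Int.prime_two.dvd_or_dvd h2 with h | h <;> exact h
  have hN' : (2 : 𝓞 K) ∣ (Algebra.norm ℤ z : 𝓞 K) := by
    obtain ⟨c, hc⟩ := hN
    exact ⟨c, by rw [hc]; push_cast; ring⟩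
  have h3 : (2 : 𝓞 K) ∣ (Algebra.trace ℤ (𝓞 K) z : 𝓞 K) * z := by
    have : (Algebra.trace ℤ (𝓞 K) z : 𝓞 K) * z = z * z + (Algebra.norm ℤ z : 𝓞 K) := by
      rw [quad z]; ring
    rw [this]
    exact dvd_add h hN'
  by_contra hcon
  have hodd : Odd (Algebra.trace ℤ (𝓞 K) z) := by
    rw [← Int.not_even_iff_odd, even_iff_two_dvd]; exact hcon
  obtain ⟨w, hw⟩ := two_dvd_of_odd_mul hodd h3
  apply hcon
  rw [hw]
  have : (2 : 𝓞 K) * w = (2 : ℤ) • w := by simp [zsmul_eq_mul]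
  rw [this, map_zsmul, smul_eq_mul]
  exact dvd_mul_right _ _

/-- `𝓞 K / 2` is reduced -/
theorem red (D : ℕ) (hd : NumberField.discr K = -(D : ℤ)) (hD : Odd D) {z : 𝓞 K}
    (h : (2 : 𝓞 K) ∣ z * z) : (2 : 𝓞 K) ∣ z := by
  refine nondeg D hd hD z fun y => ?_
  refine trace_even ?_
  have : y * z * (y * z) = (y * y) * (z * z) := by ring
  rw [this]
  exact h.mul_left _

/-- `x ^ 4 = x` modulo `2` -/
theorem pow_four (D : ℕ) (hd : NumberField.discr K = -(D : ℤ)) (hD : Odd D) (x : 𝓞 K) :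
    (2 : 𝓞 K) ∣ x ^ 4 - x := by
  have hq := quad x
  set t := Algebra.trace ℤ (𝓞 K) x
  set n := Algebra.norm ℤ x
  rcases Int.even_or_odd' t with ⟨t', ht | ht⟩ <;> rcases Int.even_or_odd' n with ⟨n', hn | hn⟩
  · have h0 : (2 : 𝓞 K) ∣ x * x := ⟨t' * x - n', by rw [hq, ht, hn]; push_cast; ring⟩
    have h1 := red D hd hD h0
    refine dvd_sub ?_ h1
    exact h1.trans ⟨x ^ 3, by ring⟩
  · have h0 : (2 : 𝓞 K) ∣ (x + 1) * (x + 1) := by
      refine ⟨t' * x - n' + x, ?_⟩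
      have : (x + 1) * (x + 1) = x * x + 2 * x + 1 := by ring
      rw [this, hq, ht, hn]; push_cast; ring
    have h1 := red D hd hD h0
    have h2 : x ^ 4 - x = (x + 1) * (x * (x - 1) * (x + 1)) - (x + 1) * (x * x) + x * x * 2
        - (x * x * x - x * x * x) - (x * x - x) * 0 + (x ^ 4 - x - ((x + 1) * (x * (x - 1) * (x + 1))
        - (x + 1) * (x * x) + x * x * 2)) := by ring
    obtain ⟨y, hy⟩ := h1
    have hx : x = 2 * y - 1 := by linear_combination hy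
    refine ⟨8 * y ^ 4 - 16 * y ^ 3 + 12 * y ^ 2 - 5 * y + 1, ?_⟩
    rw [hx]; ring
  · have h0 : (2 : 𝓞 K) ∣ x * x - x := ⟨t' * x - n', by rw [hq, ht, hn]; push_cast; ring⟩
    exact h0.trans ⟨x * x + x + 1, by ring⟩
  · have h0 : (2 : 𝓞 K) ∣ x * x + x + 1 := by
      refine ⟨t' * x - n' + x, ?_⟩
      rw [hq, ht, hn]; push_cast; ring
    exact h0.trans ⟨x * (x - 1), by ring⟩

end arith

section emb

variable {K : Type} [Field K] [NumberField K] [Algebra.IsQuadraticExtension ℚ K]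
variable {E : Type} [NontriviallyNormedField E] [NormedAlgebra ℚ_[2] E] [IsUltrametricDist E]

theorem norm_two : ‖(2 : E)‖ = (2 : ℝ)⁻¹ := by
  have h : (2 : E) = algebraMap ℚ_[2] E 2 := (map_ofNat (algebraMap ℚ_[2] E) 2).symm
  rw [h, norm_algebraMap']
  have := Padic.norm_p (p := 2)
  simpa using this

theorem emb_two (ι : K →+* E) (w : 𝓞 K) : ι ((2 * w : 𝓞 K) : K) = 2 * ι w := by
  have : ((2 * w : 𝓞 K) : K) = 2 * (w : K) := by
    change algebraMap (𝓞 K) K (2 * w) = 2 * algebraMap (𝓞 K) K w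
    rw [map_mul, map_ofNat]
  rw [this, map_mul, map_ofNat]

theorem norm_int_le (n : ℤ) : ‖(n : E)‖ ≤ 1 := IsUltrametricDist.norm_intCast_le_one E n

theorem norm_emb_le (ι : K →+* E) (z : 𝓞 K) : ‖ι z‖ ≤ 1 := by
  by_contra hcon
  rw [not_le] at hcon
  have hq := congrArg (fun y : 𝓞 K => ι (y : K)) (quad z)
  simp only [map_mul, map_sub, map_intCast] at hq
  have h1 : ‖ι z‖ * ‖ι z‖ ≤ ‖ι z‖ := by
    rw [← norm_mul, hq]
    refine ums ?_ ?_
    · rw [norm_mul]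
      calc _ ≤ 1 * ‖ι z‖ := mul_le_mul_of_nonneg_right (norm_int_le _) (norm_nonneg _)
        _ = _ := one_mul _
    · exact (norm_int_le _).trans hcon.le
  nlinarith

theorem two_dvd_norm {ι : K →+* E} {z : 𝓞 K} (h : (2 : 𝓞 K) ∣ z) : ‖ι z‖ ≤ ‖(2 : E)‖ := by
  obtain ⟨w, hw⟩ := h
  have : ι z = 2 * ι w := by rw [hw, emb_two]
  rw [this, norm_mul]
  calc _ ≤ ‖(2 : E)‖ * 1 := mul_le_mul_of_nonneg_left (norm_emb_le ι w) (norm_nonneg _)
    _ = _ := mul_one _

theorem even_of_norm_lt {ι : K →+* E} {n : ℤ} (h : ‖(n : E)‖ < 1) : Even n := by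
  by_contra hcon
  rw [Int.not_even_iff_odd] at hcon
  obtain ⟨k, hk⟩ := hcon
  have h1 : (1 : E) = (n : E) - 2 * (k : E) := by rw [hk]; push_cast; ring
  have h2 : ‖(2 : E) * (k : E)‖ < 1 := by
    rw [norm_mul, norm_two]
    have := norm_int_le (E := E) k
    calc (2 : ℝ)⁻¹ * ‖(k : E)‖ ≤ (2 : ℝ)⁻¹ * 1 := mul_le_mul_of_nonneg_left this (by norm_num)
      _ < 1 := by norm_num
  have h3 : ‖(1 : E)‖ ≤ max ‖(n : E)‖ ‖(2 : E) * (k : E)‖ := by
    conv_lhs => rw [h1]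
    exact ums (le_max_left _ _) (le_max_right _ _)
  rw [norm_one] at h3
  exact absurd (max_lt h h2) (not_lt.2 h3)

/-- the elements of norm `< 1`: zero modulo `2`, or idempotent modulo `2` with odd trace -/
theorem cases_lt (D : ℕ) (hd : NumberField.discr K = -(D : ℤ)) (hD : Odd D) (ι : K →+* E)
    {a : 𝓞 K} (h : ‖ι a‖ < 1) :
    (2 : 𝓞 K) ∣ a ∨ ((2 : 𝓞 K) ∣ a * a - a ∧ Odd (Algebra.trace ℤ (𝓞 K) a)) := by
  have hq := quad a
  have hn : Even (Algebra.norm ℤ a) := by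
    refine even_of_norm_lt (ι := ι) (E := E) ?_
    have hq' := congrArg (fun y : 𝓞 K => ι (y : K)) (quad a)
    simp only [map_mul, map_sub, map_intCast] at hq'
    have e : ((Algebra.norm ℤ a : ℤ) : E) = (Algebra.trace ℤ (𝓞 K) a : E) * ι a - ι a * ι a := by
      rw [hq']; ring
    rw [e]
    have h1 : ‖(Algebra.trace ℤ (𝓞 K) a : E) * ι a‖ ≤ ‖ι a‖ := by
      rw [norm_mul]
      calc _ ≤ 1 * ‖ι a‖ := mul_le_mul_of_nonneg_right (norm_int_le _) (norm_nonneg _)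
        _ = _ := one_mul _
    have h2 : ‖ι a * ι a‖ ≤ ‖ι a‖ := by
      rw [norm_mul]
      calc _ ≤ 1 * ‖ι a‖ := mul_le_mul_of_nonneg_right h.le (norm_nonneg _)
        _ = _ := one_mul _
    exact lt_of_le_of_lt (ums h1 h2) h
  obtain ⟨n', hn⟩ := hn
  rcases Int.even_or_odd' (Algebra.trace ℤ (𝓞 K) a) with ⟨t', ht | ht⟩
  · left
    exact red D hd hD ⟨t' * a - n', by rw [hq, ht, hn]; push_cast; ring⟩
  · right
    refine ⟨⟨t' * a - n', by rw [hq, ht, hn]; push_cast; ring⟩, ⟨t', ht⟩⟩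

theorem exists_t (D : ℕ) (hd : NumberField.discr K = -(D : ℤ)) (hD : Odd D) (ι : K →+* E) :
    ∃ t : 𝓞 K, ‖ι t‖ = 1 ∧ ∀ a : 𝓞 K, ‖ι a‖ < 1 → (2 : 𝓞 K) ∣ t * a := by
  by_cases hex : ∃ a₀ : 𝓞 K, ‖ι a₀‖ < 1 ∧ ¬ (2 : 𝓞 K) ∣ a₀
  · obtain ⟨a₀, h0, h0'⟩ := hex
    refine ⟨1 - a₀, ?_, fun a ha => ?_⟩
    · have e : ι ((1 - a₀ : 𝓞 K) : K) = 1 - ι a₀ := by simp
      rw [e]
      refine le_antisymm (ums (by rw [norm_one]) h0.le) ?_
      by_contra hcon
      rw [not_le] at hcon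
      have h3 : ‖(1 : E)‖ ≤ max ‖1 - ι a₀‖ ‖ι a₀‖ := by
        have : (1 : E) = (1 - ι a₀) + ι a₀ := by ring
        conv_lhs => rw [this]
        exact uma (le_max_left _ _) (le_max_right _ _)
      rw [norm_one] at h3
      exact absurd (max_lt hcon h0) (not_lt.2 h3)
    · rcases cases_lt D hd hD ι h0 with h | ⟨h1, h2⟩
      · exact absurd h h0'
      rcases cases_lt D hd hD ι ha with h | ⟨h3, h4⟩
      · exact h.mul_left _
      · have hs : ‖ι ((a + a₀ : 𝓞 K) : K)‖ < 1 := by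
          have e : ι ((a + a₀ : 𝓞 K) : K) = ι a + ι a₀ := by simp
          rw [e]
          exact lt_of_le_of_lt (uma (le_max_left _ _) (le_max_right _ _)) (max_lt ha h0)
        have hdvd : (2 : 𝓞 K) ∣ a + a₀ := by
          rcases cases_lt D hd hD ι hs with h | ⟨h5, h6⟩
          · exact h
          · exfalso
            rw [map_add] at h6
            exact (Int.not_even_iff_odd.2 h6) (h4.add_odd h2)
        obtain ⟨y, hy⟩ := hdvd
        obtain ⟨w, hw⟩ := h1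
        have ha' : a = 2 * y - a₀ := by linear_combination hy
        refine ⟨(1 - a₀) * y + w, ?_⟩
        rw [ha']
        linear_combination hw
  · refine ⟨1, by simp, fun a ha => ?_⟩
    rw [one_mul]
    by_contra hcon
    exact hex ⟨a, ha, hcon⟩

theorem cube (D : ℕ) (hd : NumberField.discr K = -(D : ℤ)) (hD : Odd D) (ι : K →+* E)
    {z : 𝓞 K} (h : ‖ι z‖ = 1) : ‖(ι z) ^ 3 - 1‖ ≤ ‖(2 : E)‖ := by
  have h1 := two_dvd_norm (ι := ι) (pow_four D hd hD z)
  have e : ι ((z ^ 4 - z : 𝓞 K) : K) = ι z * ((ι z) ^ 3 - 1) := by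
    push_cast
    rw [map_sub, map_pow]; ring
  rw [e, norm_mul, h, one_mul] at h1
  exact h1

theorem exists_unit (D : ℕ) (hd : NumberField.discr K = -(D : ℤ)) (hD : Odd D) (ι : K →+* E) :
    ∀ (n : ℕ) (z : 𝓞 K), ‖(2 : E)‖ ^ n < ‖ι z‖ →
      ∃ (j : ℕ) (u : E), ι z = 2 ^ j * u ∧ ‖u ^ 3 - 1‖ ≤ ‖(2 : E)‖ := by
  have h20 : (0 : ℝ) < ‖(2 : E)‖ := by rw [norm_two]; norm_num
  obtain ⟨t, ht1, ht⟩ := exists_t D hd hD ι
  have ht0 : ι t ≠ 0 := by rw [← norm_pos_iff, ht1]; exact one_pos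
  intro n
  induction n with
  | zero =>
    intro z hz
    rw [pow_zero] at hz
    exact absurd hz (not_lt.2 (norm_emb_le ι z))
  | succ n ih =>
    intro z hz
    rcases (norm_emb_le ι z).lt_or_eq with hlt | heq
    · obtain ⟨b, hb⟩ := ht z hlt
      have hb' : ι t * ι z = 2 * ι b := by
        have := congrArg (fun y : 𝓞 K => ι (y : K)) hb
        simp only [emb_two] at this
        rw [← this, ← map_mul]
        rfl
      have hn : ‖ι z‖ = ‖(2 : E)‖ * ‖ι b‖ := by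
        rw [← norm_mul, ← hb', norm_mul, ht1, one_mul]
      have hb1 : ‖(2 : E)‖ ^ n < ‖ι b‖ := by
        rw [hn, pow_succ'] at hz
        exact lt_of_mul_lt_mul_left hz h20.le
      obtain ⟨j, u, hju, hu⟩ := ih b hb1
      have hz' : ι z = 2 ^ (j + 1) * (u / ι t) := by
        field_simp
        rw [mul_comm, hb', hju]; ring
      refine ⟨j + 1, u / ι t, hz', ?_⟩
      have hc := cube D hd hD ι ht1
      have e : (u / ι t) ^ 3 - 1 = ((u ^ 3 - 1) - ((ι t) ^ 3 - 1)) / (ι t) ^ 3 := by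
        field_simp; ring
      rw [e, norm_div, norm_pow, ht1, one_pow, div_one]
      exact ums hu hc
    · exact ⟨0, ι z, by simp, cube D hd hD ι heq⟩

theorem unr (D : ℕ) (hd : NumberField.discr K = -(D : ℤ)) (hD : Odd D) (ι : K →+* E) :
    Unr (Set.range fun z : 𝓞 K => ι z) := by
  rintro _ ⟨x, rfl⟩ _ ⟨y, rfl⟩
  by_cases hxy : x = y
  · left; rw [hxy]
  · right
    have h0 : ι ((x - y : 𝓞 K) : K) ≠ 0 := by
      rw [Ne, map_eq_zero]
      intro h
      apply hxy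
      have : x - y = 0 := by exact_mod_cast RingOfIntegers.ext h
      exact sub_eq_zero.1 this
    have h2 : ‖(2 : E)‖ < 1 := by rw [norm_two]; norm_num
    obtain ⟨n, hn⟩ := exists_pow_lt_of_lt_one (norm_pos_iff.2 h0) h2
    obtain ⟨j, u, hju, hu⟩ := exists_unit D hd hD ι n (x - y) hn
    refine ⟨j, u, ?_, hu⟩
    rw [← hju]; simp

end emb

theorem SW : SWStmt := by
  intro K _ _ _ D hd hD E _ _ _ ι M ε hε
  have h2 : ‖(2 : E)‖ < 1 := by rw [norm_two]; norm_num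
  have h20 : (2 : E) ≠ 0 := by rw [← norm_pos_iff, norm_two]; norm_num
  obtain ⟨p, hp⟩ := ind h2 h20 (unr D hd hD ι) (c := 0) ⟨0, by simp⟩ M (min (ε / 2) 1)
    (lt_min (by linarith) one_pos) (min_le_right _ _)
  refine ⟨p, fun α => ?_⟩
  obtain ⟨h3, h4⟩ := hp (ι α) ⟨α, rfl⟩
  rw [sub_zero, norm_two] at h3 h4
  have h5 : min (ε / 2) 1 < ε := lt_of_le_of_lt (min_le_left _ _) (by linarith)
  split_ifs with hc
  · exact lt_of_le_of_lt (h3 hc) h5
  · rw [sub_zero]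
    exact lt_of_le_of_lt (h4 (not_le.1 hc)) h5

end Vale.Agent.P022.H945
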